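import Crest.Agent.R238.Final

/-!
# Row 238 (S0369): log-Brunn–Minkowski inequality.  Proof plan (helper90)

**Moment potential.**  For `V = C|x|²/2 + b` even and uniformly convex there is an even `u` with
`H = D²u > 0`, `log det H = x·∇u - u - V` (`mom_exist`).  With `τ = H⁻¹`, `L = τ:D² - x·∇` is symmetric for
`e^{-V}` (`divτ`, `green`), `L H = H + Q - V''`, `L τ = -τ + τ (Q + V'') τ` (`Geo`).

**Core inequality** (`core_var`).  If `L W = r + λ W`, `e = sym DW`, two Bochner-type identities (`kI`, `kII`)
combine to a sum of squares (`kw_alg`), giving `E |e|²_τ ≤ E β` (`kstar`).  With `L ψ = f - E f + λ ψ`,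
`ξ = τ∇ψ` this gives `Var f ≤ E α + E β` (`psi_id`, `cross_le`, `res_bound`).

**Application.**  For `V = ε|x|²/2 + ∑ v(s_i)`, `s_i = e^{-t a_i}⟨c_i,x⟩`, `f = ∂_t V`, `r = -∑ a_i v'(s_i) c_i`
one gets `Var f ≤ E ∂_t² V` (`var_ineq`, through cut-off potentials `cut_pot`), so `log ∫ e^{-V_t}` is
concave (`Zt_conc`).  Let `v` tend to `∞ · 1_{|s|>1}` (`gauss_slabs`), the directions fill the sphere
(`gauss_wulff`) and `ε → 0` (`log_bm`).

**Existence of `u`, `ψ`, `W`.**  Hölder scale `Mem/hn/HB` (`Hol`, `Lim`, `Rat`), Banach algebra `HC`;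
maximum principle (`Max`); Schauder estimate by Brandt's barrier (`Brandt`, `Schauder`, `Apri`); base case by
Mehler's formula (`Avg`, `Mehler`); method of continuity (`Cont`, `Lin`); `(L+1)⁻¹` on even functions by
an `L²` gap (`Gap`, `Theta`) and a weighted bootstrap (`Up`); a priori bounds by the maximum principle and
Calabi's identity (`Calabi0`, `Calabi`, `Bnd`); inverse function step in the Banach algebra (`Step`).
-/
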